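import Vale.Agent.P235.Comp.Defs

/-! P235: connected random retractions (row V1 of #25447), second source. helper159. -/

set_option linter.all false

namespace Vale.Agent.P235.ST.H159.Retr

open SimpleGraph Vale.Agent.P235

variable {V : Type} {G : SimpleGraph V} {ℓ : Sym2 V → ℝ} {X : Set V} {d : V → V → ℝ}

/-- the facts about the metric -/
structure Met (G : SimpleGraph V) (ℓ : Sym2 V → ℝ) (d : V → V → ℝ) : Prop where
  pos : ∀ u v, G.Adj u v → 0 < ℓ s(u, v)
  self : ∀ v, d v v ≤ 0
  nonneg : ∀ u v, 0 ≤ d u v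
  comm : ∀ u v, d u v = d v u
  tri : ∀ u v w, d u w ≤ d u v + d v w
  adj : ∀ u v, G.Adj u v → d u v ≤ ℓ s(u, v)
  att : ∀ x y, ∃ p : G.Walk x y, (p.edges.map ℓ).sum ≤ d x y

structure St (G : SimpleGraph V) (X : Set V) (d : V → V → ℝ) (A : Set V) (f : V → V)
    (D : ℝ) : Prop where
  subX : ∀ x ∈ X, x ∈ A
  idX : ∀ x ∈ X, f x = x
  mem : ∀ v ∈ A, f v ∈ X
  con : ∀ v ∈ A, ∃ q : G.Walk v (f v), ∀ z ∈ q.support, z ∈ A ∧ f z = f v
  near : ∀ v ∈ A, d v (f v) ≤ 2 * D

/-- the graph of the partition `c` off `A` -/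
def gr (G : SimpleGraph V) (A : Set V) (c : V → V) : SimpleGraph V where
  Adj u v := G.Adj u v ∧ u ∉ A ∧ v ∉ A ∧ c u = c v
  symm := ⟨fun _ _ h => ⟨h.1.symm, h.2.2.1, h.2.1, h.2.2.2.symm⟩⟩
  loopless := ⟨fun _ h => h.1.ne rfl⟩

theorem gr_walk {A : Set V} {c : V → V} {u v : V} (p : (gr G A c).Walk u v) (hu : u ∉ A) :
    v ∉ A ∧ c u = c v ∧ ∃ q : G.Walk u v, ∀ z ∈ q.support, z ∉ A ∧ (gr G A c).Reachable u z := by
  induction p with
  | nil =>
    refine ⟨hu, rfl, Walk.nil, ?_⟩
    intro z hz
    rw [Walk.support_nil, List.mem_singleton] at hz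
    subst hz
    exact ⟨hu, Reachable.refl _⟩
  | @cons u b v h p ih =>
    obtain ⟨h1, h2, q, hq⟩ := ih h.2.2.1
    refine ⟨h1, h.2.2.2.trans h2, Walk.cons h.1 q, ?_⟩
    intro z hz
    rw [Walk.support_cons, List.mem_cons] at hz
    rcases hz with rfl | hz
    · exact ⟨hu, Reachable.refl _⟩
    · exact ⟨(hq z hz).1, (Adj.reachable h).trans (hq z hz).2⟩

theorem stage (M : Met G ℓ d) {A : Set V} {f : V → V} {D : ℝ} (hD : 0 < D)
    (S : St G X d A f D) (c : V → V)
    (hc : ∀ u v, u ∉ X → v ∉ X → ReachOff G X u v → c u = c v → d u v ≤ D) :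
    ∃ A' f', St G X d A' f' (2 * D) ∧ A ⊆ A' ∧ (∀ v ∈ A, f' v = f v) ∧
      (∀ v y, G.Adj v y → ℓ s(v, y) ≤ D → v ∉ A' → y ∉ A ∧ (c v = c y → y ∉ A')) ∧
      (∀ u v, G.Adj u v → u ∉ A → v ∉ A → c u = c v → u ∈ A' → v ∈ A' ∧ f' v = f' u) := by
  classical
  let mk := (gr G A c).connectedComponentMk
  let hit : (gr G A c).ConnectedComponent → Prop := fun κ =>
    ∃ u y, mk u = κ ∧ u ∉ A ∧ y ∈ A ∧ G.Adj u y ∧ ℓ s(u, y) ≤ D
  have hex : ∀ κ : (gr G A c).ConnectedComponent, ∃ y : V, hit κ →
      ∃ u, mk u = κ ∧ u ∉ A ∧ y ∈ A ∧ G.Adj u y ∧ ℓ s(u, y) ≤ D := by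
    intro κ
    by_cases h : hit κ
    · obtain ⟨u, y, h⟩ := h
      exact ⟨y, fun _ => ⟨u, h⟩⟩
    · obtain ⟨v, hv⟩ := κ.exists_rep
      exact ⟨v, fun h' => absurd h' h⟩
  choose Y hY using hex
  let f' : V → V := fun v => if v ∈ A then f v else f (Y (mk v))
  have fA : ∀ v ∈ A, f' v = f v := fun v hv => if_pos hv
  have fN : ∀ v, v ∉ A → f' v = f (Y (mk v)) := fun v hv => if_neg hv
  have hmk : ∀ u v, (gr G A c).Reachable u v → mk u = mk v := fun u v h =>
    ConnectedComponent.sound h
  have hmk' : ∀ u v, mk u = mk v → (gr G A c).Reachable u v := fun u v h =>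
    ConnectedComponent.exact h
  let A' : Set V := {v | v ∈ A ∨ hit (mk v)}
  refine ⟨A', f', ⟨?_, ?_, ?_, ?_, ?_⟩, fun v hv => Or.inl hv, fA, ?_, ?_⟩
  · exact fun x hx => Or.inl (S.subX x hx)
  · exact fun x hx => by rw [fA x (S.subX x hx), S.idX x hx]
  · intro v hv
    by_cases hA : v ∈ A
    · rw [fA v hA]; exact S.mem v hA
    · rw [fN v hA]
      obtain ⟨u, h1, h2, h3, h4, h5⟩ := hY _ (hv.resolve_left hA)
      exact S.mem _ h3
  · intro v hv
    by_cases hA : v ∈ A
    · rw [fA v hA]
      obtain ⟨q, hq⟩ := S.con v hA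
      refine ⟨q, fun z hz => ⟨Or.inl (hq z hz).1, ?_⟩⟩
      rw [fA z (hq z hz).1, (hq z hz).2]
    · rw [fN v hA]
      have hh := hv.resolve_left hA
      obtain ⟨u, h1, h2, h3, h4, h5⟩ := hY _ hh
      obtain ⟨p⟩ := hmk' v u h1.symm
      obtain ⟨g1, g2, q1, hq1⟩ := gr_walk p hA
      obtain ⟨q2, hq2⟩ := S.con _ h3
      refine ⟨q1.append (Walk.cons h4 q2), ?_⟩
      intro z hz
      rw [Walk.mem_support_append_iff] at hz
      rcases hz with hz | hz
      · have e : mk v = mk z := hmk v z (hq1 z hz).2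
        refine ⟨Or.inr ?_, ?_⟩
        · rw [← e]; exact hh
        · rw [fN z (hq1 z hz).1, ← e]
      · rw [Walk.support_cons, List.mem_cons] at hz
        rcases hz with rfl | hz
        · refine ⟨Or.inr ?_, ?_⟩
          · rw [h1]; exact hh
          · rw [fN z h2, h1]
        · exact ⟨Or.inl (hq2 z hz).1, by rw [fA z (hq2 z hz).1, (hq2 z hz).2]⟩
  · intro v hv
    by_cases hA : v ∈ A
    · rw [fA v hA]
      have := S.near v hA
      linarith
    · rw [fN v hA]
      obtain ⟨u, h1, h2, h3, h4, h5⟩ := hY _ (hv.resolve_left hA)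
      obtain ⟨p⟩ := hmk' v u h1.symm
      obtain ⟨g1, g2, q1, hq1⟩ := gr_walk p hA
      have e1 : d v u ≤ D := hc v u (fun h => hA (S.subX v h)) (fun h => h2 (S.subX u h))
        ⟨q1, fun z hz h => (hq1 z hz).1 (S.subX z h)⟩ g2
      have e2 := S.near _ h3
      have e3 := M.adj _ _ h4
      have e4 := M.tri v u (f (Y (mk v)))
      have e5 := M.tri u (Y (mk v)) (f (Y (mk v)))
      linarith
  · intro v y hvy hl hv
    have hvA : v ∉ A := fun h => hv (Or.inl h)
    have hvh : ¬ hit (mk v) := fun h => hv (Or.inr h)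
    have hyA : y ∉ A := fun h => hvh ⟨v, y, rfl, hvA, h, hvy, hl⟩
    refine ⟨hyA, fun hcc hy => ?_⟩
    rcases hy with hy | hy
    · exact hyA hy
    · have : (gr G A c).Adj v y := ⟨hvy, hvA, hyA, hcc⟩
      rw [hmk v y this.reachable] at hvh
      exact hvh hy
  · intro u v huv hu hv hcc h
    have hh : hit (mk u) := h.resolve_left hu
    have : (gr G A c).Adj u v := ⟨huv, hu, hv, hcc⟩
    have e := hmk u v this.reachable
    refine ⟨Or.inr ?_, ?_⟩
    · rw [← e]; exact hh
    · rw [fN u hu, fN v hv, e]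

theorem wsum_nonneg (hp : ∀ u v, G.Adj u v → 0 < ℓ s(u, v)) {u v : V} (p : G.Walk u v) :
    0 ≤ (p.edges.map ℓ).sum := by
  induction p with
  | nil => simp
  | cons h p ih =>
    rw [Walk.edges_cons, List.map_cons, List.sum_cons]
    have := hp _ _ h
    linarith

theorem bad_le {Ω : Type} [Fintype Ω] {A : Set V} {A' : Ω → Set V} {c : Ω → V → V} {D b : ℝ}
    (hD : 0 < D) (hb : 0 ≤ b)
    (h1 : ∀ ω v y, G.Adj v y → ℓ s(v, y) ≤ D → v ∉ A' ω → y ∉ A ∧ (c ω v = c ω y → y ∉ A' ω))
    (hcut : ∀ u v, u ∉ A → v ∉ A → G.Adj u v →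
      (({ω | c ω u ≠ c ω v}.ncard : ℕ) : ℝ) ≤ b * ℓ s(u, v) / D * Fintype.card Ω)
    (hp : ∀ u v, G.Adj u v → 0 < ℓ s(u, v)) {v x : V} (p : G.Walk v x) (hx : x ∈ A) :
    (p.edges.map ℓ).sum ≤ D → v ∉ A →
    (({ω | v ∉ A' ω}.ncard : ℕ) : ℝ) ≤ b * (p.edges.map ℓ).sum / D * Fintype.card Ω := by
  induction p with
  | nil => intro _ hv; exact absurd hx hv
  | @cons v y x h p ih =>
    intro hs hv
    have e0 := wsum_nonneg hp p
    have e1 := hp _ _ h
    rw [Walk.edges_cons, List.map_cons, List.sum_cons] at hs ⊢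
    have hl : ℓ s(v, y) ≤ D := by linarith
    have hN : (0 : ℝ) ≤ Fintype.card Ω := Nat.cast_nonneg _
    by_cases hy : y ∈ A
    · have : {ω | v ∉ A' ω} = ∅ := by
        ext ω
        simp only [Set.mem_setOf_eq, Set.mem_empty_iff_false, iff_false]
        exact fun hv' => (h1 ω v y h hl hv').1 hy
      rw [this, Set.ncard_empty, Nat.cast_zero]
      positivity
    · have ih' := ih hx (by linarith) hy
      have hc := hcut v y hv hy h
      have hsub : {ω | v ∉ A' ω} ⊆ {ω | c ω v ≠ c ω y} ∪ {ω | y ∉ A' ω} := by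
        intro ω hω
        by_cases hcc : c ω v = c ω y
        · exact Or.inr ((h1 ω v y h hl hω).2 hcc)
        · exact Or.inl hcc
      have h2 : ({ω | v ∉ A' ω}.ncard : ℝ) ≤
          ({ω | c ω v ≠ c ω y}.ncard : ℝ) + ({ω | y ∉ A' ω}.ncard : ℝ) := by
        have := (Set.ncard_le_ncard hsub (Set.toFinite _)).trans (Set.ncard_union_le _ _)
        exact_mod_cast this
      have h3 : b * (ℓ s(v, y) + (p.edges.map ℓ).sum) / D * (Fintype.card Ω : ℝ) =
        b * ℓ s(v, y) / D * Fintype.card Ω + b * (p.edges.map ℓ).sum / D * Fintype.card Ω := by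
        ring
      rw [h3]
      linarith

theorem sum_ind {Ω : Type} [Fintype Ω] (S : Set Ω) {M t : ℝ} (hM : 0 ≤ M)
    (hS : (S.ncard : ℝ) ≤ t * Fintype.card Ω) :
    ∑ ω, S.indicator (fun _ => M) ω ≤ t * M * Fintype.card Ω := by
  classical
  have h1 : ∑ ω, S.indicator (fun _ => M) ω = (S.ncard : ℝ) * M := by
    have h2 : S.ncard = (Finset.univ.filter (· ∈ S)).card := by
      rw [← Set.ncard_coe_finset]
      congr 1
      ext ω
      simp
    simp only [Set.indicator_apply]
    rw [← Finset.sum_filter, Finset.sum_const, nsmul_eq_mul, h2]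
  rw [h1]
  nlinarith

structure Fam (G : SimpleGraph V) (X A : Set V) (f : V → V) {ι : Type} [Fintype ι]
    (w : ι → ℝ) (π : ι → V → V) : Prop where
  w0 : ∀ i, 0 ≤ w i
  w1 : ∑ i, w i = 1
  ext : ∀ i, ∀ v ∈ A, π i v = f v
  inX : ∀ i v, π i v ∈ X
  con : ∀ i v, ∃ q : G.Walk v (π i v), ∀ z ∈ q.support, π i z = π i v


theorem recur (M : Met G ℓ d) (hX : X.Nonempty) {b : ℝ} (hb : 1 ≤ b) (a : V → ℝ)
    (ha : ∀ v, ∀ x ∈ X, a v ≤ d v x) (ha' : ∀ v, ∃ x ∈ X, d v x ≤ a v)
    (hcuts : ∀ D : ℝ, 0 < D → ∃ (Ω : Type) (_ : Fintype Ω) (_ : Nonempty Ω) (c : Ω → V → V),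
      (∀ ω u v, u ∉ X → v ∉ X → ReachOff G X u v → c ω u = c ω v → d u v ≤ D) ∧
      ∀ u v, u ∉ X → v ∉ X → G.Adj u v →
        (({ω | c ω u ≠ c ω v}.ncard : ℕ) : ℝ) ≤ b * ℓ s(u, v) / D * Fintype.card Ω) :
    ∀ (k : ℕ) (D : ℝ), 0 < D → (∀ u v, d u v ≤ D * 2 ^ k) → ∀ (A : Set V) (f : V → V),
      St G X d A f D →
      ∃ (ι : Type) (_ : Fintype ι) (w : ι → ℝ) (π : ι → V → V), Fam G X A f w π ∧
        (∀ v, v ∉ A → ∑ i, w i * d v (π i v) ≤ max (8 * D) (64 * b * a v)) ∧
        ∀ u v, G.Adj u v → u ∉ A → v ∉ A → a u ≤ a v → ℓ s(u, v) ≤ a u →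
          ∑ i, w i * d (π i u) (π i v) ≤
            772 * b ^ 2 * ℓ s(u, v) * (2 + min (16 * b) (4 * b * a u / D)) := by
  classical
  have ha0 : ∀ v, 0 ≤ a v := by
    intro v
    obtain ⟨x, hx, h⟩ := ha' v
    exact (M.nonneg v x).trans h
  have alip : ∀ u v, G.Adj u v → a v ≤ a u + ℓ s(u, v) := by
    intro u v h
    obtain ⟨x, hx, h1⟩ := ha' u
    have h2 := ha v x hx
    have h3 := M.tri v u x
    have h4 := M.adj u v h
    have h5 := M.comm v u
    linarith
  intro k
  induction k with
  | zero =>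
    intro D hD hdiam A f S
    simp only [pow_zero, mul_one] at hdiam
    obtain ⟨x0, hx0⟩ := hX
    obtain ⟨A', f', S', hAA, hext, h1, h2⟩ :=
      stage M hD S (fun _ => x0) (fun u v _ _ _ _ => hdiam u v)
    have hall : ∀ v, v ∈ A' := by
      have this : ∀ {v x : V} (p : G.Walk v x), x ∈ A → (p.edges.map ℓ).sum ≤ D →
          v ∉ A' → False := by
        intro v x p
        induction p with
        | nil => intro hx _ hv; exact hv (hAA hx)
        | cons h p ih =>
          intro hx hs hv
          rw [Walk.edges_cons, List.map_cons, List.sum_cons] at hs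
          have e0 := wsum_nonneg M.pos p
          have e1 := M.pos _ _ h
          exact ih hx (by linarith) ((h1 _ _ h (by linarith) hv).2 rfl)
      intro v
      by_contra hv
      obtain ⟨p, hp⟩ := M.att v x0
      exact this p (S.subX x0 hx0) (hp.trans (hdiam v x0)) hv
    refine ⟨Unit, inferInstance, fun _ => 1, fun _ => f', ⟨fun _ => zero_le_one, by simp,
      fun _ => hext, fun _ v => S'.mem v (hall v), fun _ v => ?_⟩, ?_, ?_⟩
    · obtain ⟨q, hq⟩ := S'.con v (hall v)
      exact ⟨q, fun z hz => (hq z hz).2⟩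
    · intro v hv
      simp only [Finset.univ_unique, Finset.sum_const, Finset.card_singleton, one_smul, one_mul]
      exact ((hdiam v (f' v)).trans (by linarith)).trans (le_max_left _ _)
    · intro u v huv hu hv _ hla
      have e : f' v = f' u := (h2 u v huv hu hv rfl (hall u)).2
      simp only [Finset.univ_unique, Finset.sum_const, Finset.card_singleton, one_smul, one_mul]
      rw [e]
      have h3 := M.self (f' u)
      have h4 := M.pos _ _ huv
      have h5 : 0 ≤ min (16 * b) (4 * b * a u / D) :=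
        le_min (by linarith) (div_nonneg (mul_nonneg (by linarith) (ha0 u)) hD.le)
      have h6 : 0 ≤ 772 * b ^ 2 * ℓ s(u, v) * (2 + min (16 * b) (4 * b * a u / D)) := by
        apply mul_nonneg (mul_nonneg (by positivity) h4.le)
        linarith
      linarith
  | succ k ih =>
    intro D hD hdiam A f S
    obtain ⟨Ω, _, _, c, hc, hcut⟩ := hcuts D hD
    have hst := fun ω => stage M hD S (c ω) (hc ω)
    choose A' f' S' hAA hext h1 h2 using hst
    have hih := fun ω => ih (2 * D) (by linarith) (by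
      intro u v
      have := hdiam u v
      rw [pow_succ] at this
      linarith) (A' ω) (f' ω) (S' ω)
    choose ι fι w π F R Q using hih
    have hN : (0 : ℝ) < Fintype.card Ω := by exact_mod_cast Fintype.card_pos
    have key : ∀ h : (V → V) → ℝ, ∑ j : (Σ ω, ι ω), (w j.1 j.2 / Fintype.card Ω) * h (π j.1 j.2) =
        (∑ ω, ∑ i, w ω i * h (π ω i)) / Fintype.card Ω := by
      intro h
      rw [Fintype.sum_sigma, Finset.sum_div]
      refine Finset.sum_congr rfl fun ω _ => ?_
      rw [Finset.sum_div]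
      refine Finset.sum_congr rfl fun i _ => ?_
      ring
    have hcutA : ∀ u v, u ∉ A → v ∉ A → G.Adj u v →
        (({ω | c ω u ≠ c ω v}.ncard : ℕ) : ℝ) ≤ b * ℓ s(u, v) / D * Fintype.card Ω :=
      fun u v hu hv h => hcut u v (fun h => hu (S.subX u h)) (fun h => hv (S.subX v h)) h
    have hbad : ∀ v, v ∉ A → a v ≤ D →
        (({ω | v ∉ A' ω}.ncard : ℕ) : ℝ) ≤ b * a v / D * Fintype.card Ω := by
      intro v hv hav
      obtain ⟨x, hx, hvx⟩ := ha' v
      obtain ⟨p, hp⟩ := M.att v x
      have h3 := bad_le (Ω := Ω) (A := A) (A' := A') (c := c) (D := D) (b := b) hD (by linarith)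
        h1 hcutA M.pos p (S.subX x hx) (by linarith) hv
      refine h3.trans (mul_le_mul_of_nonneg_right ?_ hN.le)
      exact div_le_div_of_nonneg_right (mul_le_mul_of_nonneg_left (hp.trans hvx) (by linarith)) hD.le
    have hasg : ∀ ω v, v ∈ A' ω → a v ≤ 4 * D := by
      intro ω v hv
      have e1 := (S' ω).near v hv
      have e2 := ha v _ ((S' ω).mem v hv)
      linarith
    have hcst : ∀ ω (r : ℝ), ∑ i, w ω i * r = r := by
      intro ω r
      rw [← Finset.sum_mul, (F ω).w1, one_mul]
    have hER : ∀ ω v, v ∉ A → ∑ i, w ω i * d v (π ω i v) ≤ max (16 * D) (64 * b * a v) := by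
      intro ω v hv
      by_cases h : v ∈ A' ω
      · have e : ∑ i, w ω i * d v (π ω i v) = d v (f' ω v) := by
          rw [← hcst ω (d v (f' ω v))]
          refine Finset.sum_congr rfl fun i _ => ?_
          rw [(F ω).ext i v h]
        rw [e]
        have e1 := (S' ω).near v h
        exact le_trans (by linarith) (le_max_left _ _)
      · have := R ω v h
        rw [← mul_assoc] at this
        norm_num at this
        rw [le_max_iff]
        exact this
    refine ⟨Σ ω, ι ω, inferInstance, fun j => w j.1 j.2 / Fintype.card Ω, fun j => π j.1 j.2,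
      ⟨?_, ?_, ?_, ?_, ?_⟩, ?_, ?_⟩
    · exact fun j => div_nonneg ((F j.1).w0 j.2) hN.le
    · have := key (fun _ => 1)
      simp only [mul_one] at this
      rw [this]
      have : ∑ ω, ∑ i, w ω i = (Fintype.card Ω : ℝ) := by
        rw [Finset.sum_congr rfl fun ω _ => (F ω).w1]
        simp
      rw [this, div_self hN.ne']
    · intro j v hv
      rw [(F j.1).ext j.2 v (hAA j.1 hv), hext j.1 v hv]
    · exact fun j v => (F j.1).inX j.2 v
    · exact fun j v => (F j.1).con j.2 v
    · intro v hv
      rw [key (fun g => d v (g v)), div_le_iff₀ hN]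
      by_cases h4 : 4 * b * a v ≤ D
      · have hav : a v ≤ D := by nlinarith [ha0 v]
        have hg : ∀ ω, ∑ i, w ω i * d v (π ω i v) ≤
            4 * D + Set.indicator {ω | v ∉ A' ω} (fun _ => 16 * D) ω := by
          intro ω
          by_cases h : v ∈ A' ω
          · have e : ∑ i, w ω i * d v (π ω i v) = d v (f' ω v) := by
              rw [← hcst ω (d v (f' ω v))]
              refine Finset.sum_congr rfl fun i _ => ?_
              rw [(F ω).ext i v h]
            rw [e, Set.indicator_of_notMem (by simpa using h)]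
            have e1 := (S' ω).near v h
            linarith
          · rw [Set.indicator_of_mem (by simpa using h)]
            refine (hER ω v hv).trans ?_
            rw [max_le_iff]
            constructor <;> linarith
        have hs := sum_ind {ω | v ∉ A' ω} (M := 16 * D) (by linarith) (hbad v hv hav)
        have hsum : ∑ ω, ∑ i, w ω i * d v (π ω i v) ≤
            4 * D * Fintype.card Ω + b * a v / D * (16 * D) * Fintype.card Ω := by
          refine (Finset.sum_le_sum fun ω _ => hg ω).trans ?_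
          rw [Finset.sum_add_distrib, Finset.sum_const, nsmul_eq_mul, Finset.card_univ]
          linarith
        refine hsum.trans ?_
        have e1 : b * a v / D * (16 * D) = 16 * (b * a v) := by field_simp
        rw [e1, ← add_mul]
        refine mul_le_mul_of_nonneg_right ?_ hN.le
        exact le_trans (by linarith) (le_max_left _ _)
      · have h4' := not_le.1 h4
        have hg : ∀ ω ∈ Finset.univ, ∑ i, w ω i * d v (π ω i v) ≤ 64 * b * a v := by
          intro ω _
          refine (hER ω v hv).trans ?_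
          rw [max_le_iff]
          constructor <;> linarith
        refine (Finset.sum_le_sum hg).trans ?_
        rw [Finset.sum_const, nsmul_eq_mul, Finset.card_univ, mul_comm]
        exact mul_le_mul_of_nonneg_right (le_max_right _ _) hN.le
    · intro u v huv hu hv hauv hla
      have hl0 := M.pos _ _ huv
      have hau := ha0 u
      set q' : ℝ := 772 * b ^ 2 * ℓ s(u, v) * (2 + min (16 * b) (4 * b * a u / (2 * D))) with hq'
      have hC : 0 ≤ 772 * b ^ 2 * ℓ s(u, v) := by positivity
      have hm0 : 0 ≤ min (16 * b) (4 * b * a u / (2 * D)) :=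
        le_min (by linarith) (div_nonneg (mul_nonneg (by linarith) hau) (by linarith))
      have hq0 : 0 ≤ q' := mul_nonneg hC (by linarith)
      have hQ : ∀ ω, u ∉ A' ω → v ∉ A' ω → ∑ i, w ω i * d (π ω i u) (π ω i v) ≤ q' :=
        fun ω hu' hv' => Q ω u v huv hu' hv' hauv hla
      rw [key (fun g => d (g u) (g v)), div_le_iff₀ hN]
      by_cases h4 : 4 * D < a u
      · have hg : ∀ ω ∈ Finset.univ, ∑ i, w ω i * d (π ω i u) (π ω i v) ≤ q' := by
          intro ω _
          refine hQ ω (fun h => ?_) (fun h => ?_)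
          · have := hasg ω u h
            linarith
          · have := hasg ω v h
            linarith
        refine (Finset.sum_le_sum hg).trans ?_
        rw [Finset.sum_const, nsmul_eq_mul, Finset.card_univ, mul_comm]
        refine mul_le_mul_of_nonneg_right ?_ hN.le
        refine mul_le_mul_of_nonneg_left ?_ hC
        have : 4 * b * a u / (2 * D) ≤ 4 * b * a u / D :=
          div_le_div_of_nonneg_left (mul_nonneg (by linarith) hau) hD (by linarith)
        have := min_le_min_left (16 * b) this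
        linarith
      · have h4' := not_lt.1 h4
        have hav : a v ≤ 8 * D := by
          have := alip u v huv
          linarith
        have hbD : D ≤ b * D := by nlinarith
        have hg : ∀ ω, ∑ i, w ω i * d (π ω i u) (π ω i v) ≤
            Set.indicator {ω | c ω u ≠ c ω v} (fun _ => 772 * b * D) ω +
            Set.indicator {ω | u ∉ A' ω} (fun _ => q') ω := by
          intro ω
          have i1 : 0 ≤ Set.indicator {ω | c ω u ≠ c ω v} (fun _ => 772 * b * D) ω :=
            Set.indicator_nonneg (fun _ _ => by nlinarith) ω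
          have i2 : 0 ≤ Set.indicator {ω | u ∉ A' ω} (fun _ => q') ω :=
            Set.indicator_nonneg (fun _ _ => hq0) ω
          by_cases hboth : u ∉ A' ω ∧ v ∉ A' ω
          · rw [Set.indicator_of_mem (s := {ω | u ∉ A' ω}) (by simpa using hboth.1)]
            have := hQ ω hboth.1 hboth.2
            linarith
          · by_cases hcc : c ω u = c ω v
            · have hsame : u ∈ A' ω ∧ v ∈ A' ω ∧ f' ω v = f' ω u := by
                by_cases hu' : u ∈ A' ω
                · have := h2 ω u v huv hu hv hcc hu'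
                  exact ⟨hu', this.1, this.2⟩
                · have hv' : v ∈ A' ω := by
                    by_contra h
                    exact hboth ⟨hu', h⟩
                  have := h2 ω v u huv.symm hv hu hcc.symm hv'
                  exact absurd this.1 hu'
              have e : ∑ i, w ω i * d (π ω i u) (π ω i v) ≤ ∑ i, w ω i * (0 : ℝ) := by
                refine Finset.sum_le_sum fun i _ => mul_le_mul_of_nonneg_left ?_ ((F ω).w0 i)
                rw [(F ω).ext i u hsame.1, (F ω).ext i v hsame.2.1, hsame.2.2]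
                exact M.self _
              rw [hcst] at e
              linarith
            · rw [Set.indicator_of_mem (s := {ω | c ω u ≠ c ω v}) (by simpa using hcc)]
              have e : ∑ i, w ω i * d (π ω i u) (π ω i v) ≤
                  ∑ i, w ω i * d u (π ω i u) + ∑ i, w ω i * ℓ s(u, v) +
                    ∑ i, w ω i * d v (π ω i v) := by
                rw [← Finset.sum_add_distrib, ← Finset.sum_add_distrib]
                refine Finset.sum_le_sum fun i _ => ?_
                rw [← mul_add, ← mul_add]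
                refine mul_le_mul_of_nonneg_left ?_ ((F ω).w0 i)
                have t1 := M.tri (π ω i u) u (π ω i v)
                have t2 := M.tri u v (π ω i v)
                have t3 := M.comm (π ω i u) u
                have t4 := M.adj u v huv
                linarith
              rw [hcst] at e
              have eu := hER ω u hu
              have ev := hER ω v hv
              have eu' : max (16 * D) (64 * b * a u) ≤ 256 * (b * D) := by
                rw [max_le_iff]
                constructor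
                · linarith
                · nlinarith
              have ev' : max (16 * D) (64 * b * a v) ≤ 512 * (b * D) := by
                rw [max_le_iff]
                constructor
                · linarith
                · nlinarith
              linarith
        have hs1 := sum_ind {ω | c ω u ≠ c ω v} (M := 772 * b * D) (by nlinarith)
          (hcutA u v hu hv huv)
        have e1 : b * ℓ s(u, v) / D * (772 * b * D) = 772 * b ^ 2 * ℓ s(u, v) := by
          field_simp
        rw [e1] at hs1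
        have hmain : ∀ t : ℝ, (({ω | u ∉ A' ω}.ncard : ℕ) : ℝ) ≤ t * Fintype.card Ω →
            1 + t * (2 + min (16 * b) (4 * b * a u / (2 * D))) ≤
              2 + min (16 * b) (4 * b * a u / D) →
            ∑ ω, ∑ i, w ω i * d (π ω i u) (π ω i v) ≤
              772 * b ^ 2 * ℓ s(u, v) * (2 + min (16 * b) (4 * b * a u / D)) *
                Fintype.card Ω := by
          intro t ht hineq
          have hs2 := sum_ind {ω | u ∉ A' ω} (M := q') hq0 ht
          refine (Finset.sum_le_sum fun ω _ => hg ω).trans ?_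
          rw [Finset.sum_add_distrib]
          refine (add_le_add hs1 hs2).trans ?_
          rw [← add_mul]
          refine mul_le_mul_of_nonneg_right ?_ hN.le
          have := mul_le_mul_of_nonneg_left hineq hC
          rw [hq']
          linarith
        set s : ℝ := b * a u / D with hs
        have hs0 : 0 ≤ s := div_nonneg (mul_nonneg (by linarith) hau) hD.le
        have hs4 : s ≤ 4 * b := by
          rw [hs, div_le_iff₀ hD]
          nlinarith
        have m1 : min (16 * b) (4 * b * a u / D) = 4 * s := by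
          have : 4 * b * a u / D = 4 * s := by rw [hs]; ring
          rw [this, min_eq_right (by linarith)]
        have m2 : min (16 * b) (4 * b * a u / (2 * D)) = 2 * s := by
          have : 4 * b * a u / (2 * D) = 2 * s := by
            rw [hs]; field_simp; ring
          rw [this, min_eq_right (by linarith)]
        by_cases h1s : s ≤ 1
        · refine hmain s ?_ ?_
          · apply hbad u hu
            rw [hs, div_le_iff₀ hD] at h1s
            nlinarith
          · rw [m1, m2]
            nlinarith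
        · refine hmain 1 ?_ ?_
          · rw [one_mul]
            have := Set.ncard_le_ncard (Set.subset_univ {ω | u ∉ A' ω}) (Set.toFinite _)
            rw [Set.ncard_univ, Nat.card_eq_fintype_card] at this
            exact_mod_cast this
          · rw [m1, m2]
            linarith [not_le.1 h1s]


/-! ### the path metric -/

theorem bddW (hl : ∀ e ∈ G.edgeSet, 0 < ℓ e) (x y : V) :
    BddBelow (Set.range fun w : G.Walk x y => (w.edges.map ℓ).sum) :=
  ⟨0, by
    rintro _ ⟨w, rfl⟩
    exact wsum_nonneg (fun u v h => hl s(u, v) (G.mem_edgeSet.2 h)) w⟩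

theorem dist_le_w (hl : ∀ e ∈ G.edgeSet, 0 < ℓ e) {x y : V} (w : G.Walk x y) :
    pathDist G ℓ x y ≤ (w.edges.map ℓ).sum := ciInf_le (bddW hl x y) w

theorem w_bypass [DecidableEq V] (hp : ∀ u v, G.Adj u v → 0 < ℓ s(u, v)) {x y : V}
    (w : G.Walk x y) : (w.bypass.edges.map ℓ).sum ≤ (w.edges.map ℓ).sum := by
  induction w with
  | nil => simp [Walk.bypass]
  | @cons x b y h p ih =>
    have h0 := hp _ _ h
    simp only [Walk.bypass]
    split
    · rename_i hs
      have e : p.bypass = (p.bypass.takeUntil x hs).append (p.bypass.dropUntil x hs) :=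
        (Walk.take_spec _ hs).symm
      have e1 : (p.bypass.edges.map ℓ).sum = ((p.bypass.takeUntil x hs).edges.map ℓ).sum +
          ((p.bypass.dropUntil x hs).edges.map ℓ).sum := by
        conv_lhs => rw [e]
        rw [Walk.edges_append, List.map_append, List.sum_append]
      have e2 := wsum_nonneg hp (p.bypass.takeUntil x hs)
      rw [Walk.edges_cons, List.map_cons, List.sum_cons]
      linarith
    · rw [Walk.edges_cons, Walk.edges_cons, List.map_cons, List.sum_cons, List.map_cons,
        List.sum_cons]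
      linarith

theorem met [Finite V] (hc : G.Connected) (hl : ∀ e ∈ G.edgeSet, 0 < ℓ e) :
    Met G ℓ (pathDist G ℓ) := by
  classical
  have hp : ∀ u v, G.Adj u v → 0 < ℓ s(u, v) := fun u v h => hl s(u, v) (G.mem_edgeSet.2 h)
  refine ⟨hp, ?_, ?_, ?_, ?_, ?_, ?_⟩
  · intro v
    have := dist_le_w hl (Walk.nil : G.Walk v v)
    simpa using this
  · exact fun u v => Real.iInf_nonneg fun w => wsum_nonneg hp w
  · have hle : ∀ u v, pathDist G ℓ u v ≤ pathDist G ℓ v u := by
      intro u v
      have : Nonempty (G.Walk v u) := hc v u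
      refine le_ciInf fun w => ?_
      have h := dist_le_w hl w.reverse
      rwa [Walk.edges_reverse, List.map_reverse, List.sum_reverse] at h
    exact fun u v => le_antisymm (hle u v) (hle v u)
  · intro x y z
    have : Nonempty (G.Walk x y) := hc x y
    have : Nonempty (G.Walk y z) := hc y z
    have h2 : ∀ w : G.Walk x y, pathDist G ℓ x z - (w.edges.map ℓ).sum ≤ pathDist G ℓ y z := by
      intro w
      refine le_ciInf fun w' => ?_
      have := dist_le_w hl (w.append w')
      rw [Walk.edges_append, List.map_append, List.sum_append] at this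
      linarith
    have h3 : pathDist G ℓ x z - pathDist G ℓ y z ≤ pathDist G ℓ x y := by
      refine le_ciInf fun w => ?_
      have := h2 w
      linarith
    linarith
  · intro u v h
    have := dist_le_w hl (Walk.cons h Walk.nil)
    simpa using this
  · intro x y
    have := Fintype.ofFinite V
    obtain ⟨w0⟩ := hc.preconnected x y
    have hne : Nonempty (G.Path x y) := ⟨⟨w0.bypass, w0.bypass_isPath⟩⟩
    obtain ⟨p, hpm⟩ := Finite.exists_min (fun p : G.Path x y => (p.1.edges.map ℓ).sum)
    refine ⟨p.1, ?_⟩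
    have : Nonempty (G.Walk x y) := ⟨w0⟩
    refine le_ciInf fun w => ?_
    exact (hpm ⟨w.bypass, w.bypass_isPath⟩).trans (w_bypass hp w)

/-- the constant of `conRetr` -/
noncomputable def C1 : ℝ := 772 * 157 ^ 2 * (2 + 16 * 157) + 17 + 192 * 157

theorem conRetr_one [Finite V] (hc : G.Connected) (hl : ∀ e ∈ G.edgeSet, 0 < ℓ e)
    (hX : X.Nonempty)
    (hcuts : ∀ Δ ε : ℝ, 0 < Δ → 0 < ε →
      ∃ (Ω : Type) (_ : Fintype Ω) (_ : Nonempty Ω) (c : Ω → V → V),
      (∀ ω u v, u ∉ X → v ∉ X → ReachOff G X u v → c ω u = c ω v → pathDist G ℓ u v ≤ Δ) ∧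
      ∀ u v, u ∉ X → v ∉ X → G.Adj u v →
        (({ω | c ω u ≠ c ω v}.ncard : ℕ) : ℝ) ≤
          (156 * ℓ s(u, v) / Δ + ε) * Fintype.card Ω) :
    ∃ (ι : Type) (_ : Fintype ι) (w : ι → ℝ) (π : ι → V → V), (∀ i, 0 ≤ w i) ∧ ∑ i, w i = 1 ∧
      (∀ i v, π i v ∈ X) ∧ (∀ i, ∀ x ∈ X, π i x = x) ∧
      (∀ i v, ∃ q : G.Walk v (π i v), ∀ z ∈ q.support, π i z = π i v) ∧
      ∀ u v, G.Adj u v → ∑ i, w i * pathDist G ℓ (π i u) (π i v) ≤ C1 * ℓ s(u, v) := by
  classical
  have M := met hc hl
  -- the least edge length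
  obtain ⟨lm, hlm, hle⟩ : ∃ lm : ℝ, 0 < lm ∧ ∀ u v, G.Adj u v → lm ≤ ℓ s(u, v) := by
    have hf : (G.edgeSet).Finite := Set.toFinite _
    by_cases hne : (G.edgeSet).Nonempty
    · obtain ⟨e, he, hmin⟩ := Set.exists_min_image _ ℓ hf hne
      exact ⟨ℓ e, hl e he, fun u v h => hmin _ (G.mem_edgeSet.2 h)⟩
    · refine ⟨1, one_pos, fun u v h => absurd ⟨s(u, v), G.mem_edgeSet.2 h⟩ hne⟩
  -- nearest points
  have hnear : ∀ v, ∃ x ∈ X, ∀ y ∈ X, pathDist G ℓ v x ≤ pathDist G ℓ v y := by
    intro v
    obtain ⟨x, hx, h⟩ := Set.exists_min_image X (fun x => pathDist G ℓ v x) (Set.toFinite _) hX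
    exact ⟨x, hx, h⟩
  choose nx hnx hnx' using hnear
  -- the diameter
  obtain ⟨k, hk⟩ : ∃ k : ℕ, ∀ u v, pathDist G ℓ u v ≤ lm * 2 ^ k := by
    have hV : Nonempty V := hc.nonempty
    obtain ⟨p, hp⟩ := Finite.exists_max (fun p : V × V => pathDist G ℓ p.1 p.2)
    obtain ⟨k, hk⟩ := pow_unbounded_of_one_lt (pathDist G ℓ p.1 p.2 / lm) (one_lt_two)
    refine ⟨k, fun u v => (hp (u, v)).trans ?_⟩
    rw [div_lt_iff₀ hlm] at hk
    linarith
  have hcuts' : ∀ D : ℝ, 0 < D → ∃ (Ω : Type) (_ : Fintype Ω) (_ : Nonempty Ω) (c : Ω → V → V),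
      (∀ ω u v, u ∉ X → v ∉ X → ReachOff G X u v → c ω u = c ω v → pathDist G ℓ u v ≤ D) ∧
      ∀ u v, u ∉ X → v ∉ X → G.Adj u v →
        (({ω | c ω u ≠ c ω v}.ncard : ℕ) : ℝ) ≤ 157 * ℓ s(u, v) / D * Fintype.card Ω := by
    intro D hD
    obtain ⟨Ω, i1, i2, c, h1, h2⟩ := hcuts D (lm / D) hD (div_pos hlm hD)
    refine ⟨Ω, i1, i2, c, h1, fun u v hu hv h => (h2 u v hu hv h).trans ?_⟩
    refine mul_le_mul_of_nonneg_right ?_ (Nat.cast_nonneg _)
    rw [← add_div]
    refine div_le_div_of_nonneg_right ?_ hD.le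
    have := hle u v h
    linarith
  have S0 : St G X (pathDist G ℓ) X id lm := by
    refine ⟨fun x hx => hx, fun x _ => rfl, fun v hv => hv, fun v hv => ?_, fun v hv => ?_⟩
    · refine ⟨Walk.nil, fun z hz => ?_⟩
      rw [Walk.support_nil, List.mem_singleton] at hz
      subst hz
      exact ⟨hv, rfl⟩
    · have := M.self v
      simp only [id]
      linarith
  obtain ⟨ι, fι, w, π, F, R, Q⟩ := recur M hX (b := 157) (by norm_num)
    (fun v => pathDist G ℓ v (nx v)) (fun v x hx => hnx' v x hx)
    (fun v => ⟨nx v, hnx v, le_rfl⟩) hcuts' k lm hlm hk X id S0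
  refine ⟨ι, fι, w, π, F.w0, F.w1, F.inX, fun i x hx => F.ext i x hx, F.con, ?_⟩
  have hcst : ∀ r : ℝ, ∑ i, w i * r = r := by
    intro r
    rw [← Finset.sum_mul, F.w1, one_mul]
  -- an edge by the distances of its ends
  have hA : ∀ u v, G.Adj u v → ∑ i, w i * pathDist G ℓ (π i u) (π i v) ≤
      ∑ i, w i * pathDist G ℓ u (π i u) + ℓ s(u, v) + ∑ i, w i * pathDist G ℓ v (π i v) := by
    intro u v huv
    have e : ∑ i, w i * pathDist G ℓ (π i u) (π i v) ≤
        ∑ i, w i * pathDist G ℓ u (π i u) + ∑ i, w i * ℓ s(u, v) +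
          ∑ i, w i * pathDist G ℓ v (π i v) := by
      rw [← Finset.sum_add_distrib, ← Finset.sum_add_distrib]
      refine Finset.sum_le_sum fun i _ => ?_
      rw [← mul_add, ← mul_add]
      refine mul_le_mul_of_nonneg_left ?_ (F.w0 i)
      have t1 := M.tri (π i u) u (π i v)
      have t2 := M.tri u v (π i v)
      have t3 := M.comm (π i u) u
      have t4 := M.adj u v huv
      linarith
    rwa [hcst] at e
  have hRX : ∀ v ∈ X, ∑ i, w i * pathDist G ℓ v (π i v) ≤ 0 := by
    intro v hv
    have e : ∑ i, w i * pathDist G ℓ v (π i v) ≤ ∑ i, w i * (0 : ℝ) := by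
      refine Finset.sum_le_sum fun i _ => mul_le_mul_of_nonneg_left ?_ (F.w0 i)
      rw [F.ext i v hv]
      exact M.self v
    rwa [hcst] at e
  have hR : ∀ v l, lm ≤ l → pathDist G ℓ v (nx v) ≤ l →
      ∑ i, w i * pathDist G ℓ v (π i v) ≤ 8 * lm + 64 * 157 * l := by
    intro v l hl1 hl2
    by_cases hv : v ∈ X
    · have := hRX v hv
      linarith
    · refine (R v hv).trans ?_
      rw [max_le_iff]
      constructor
      · linarith
      · linarith
  have hsmall : ∀ u v, G.Adj u v → pathDist G ℓ u (nx u) ≤ ℓ s(u, v) →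
      ∑ i, w i * pathDist G ℓ (π i u) (π i v) ≤ (17 + 192 * 157) * ℓ s(u, v) := by
    intro u v huv h
    have e0 := hle u v huv
    have e1 := hR u (ℓ s(u, v)) e0 h
    have e2 : pathDist G ℓ v (nx v) ≤ 2 * ℓ s(u, v) := by
      have t1 := hnx' v (nx u) (hnx u)
      have t2 := M.tri v u (nx u)
      have t3 := M.adj u v huv
      have t4 := M.comm u v
      linarith
    have e3 := hR v (2 * ℓ s(u, v)) (by linarith) e2
    have e4 := hA u v huv
    linarith
  have hord : ∀ u v, G.Adj u v → pathDist G ℓ u (nx u) ≤ pathDist G ℓ v (nx v) →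
      ∑ i, w i * pathDist G ℓ (π i u) (π i v) ≤ C1 * ℓ s(u, v) := by
    intro u v huv h
    have hpos := M.pos u v huv
    have hC1 : (17 + 192 * 157) * ℓ s(u, v) ≤ C1 * ℓ s(u, v) := by
      refine mul_le_mul_of_nonneg_right ?_ hpos.le
      unfold C1
      norm_num
    by_cases hs : pathDist G ℓ u (nx u) ≤ ℓ s(u, v)
    · exact (hsmall u v huv hs).trans hC1
    · have hs' := not_le.1 hs
      have hu : u ∉ X := by
        intro hu
        have t1 := hnx' u u hu
        have t2 := M.self u
        linarith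
      have hv : v ∉ X := by
        intro hv
        have t1 := hnx' v v hv
        have t2 := M.self v
        linarith
      have := Q u v huv hu hv h hs'.le
      refine this.trans ?_
      have e1 : 772 * (157 : ℝ) ^ 2 * ℓ s(u, v) *
          (2 + min (16 * 157) (4 * 157 * pathDist G ℓ u (nx u) / lm)) ≤
          772 * 157 ^ 2 * ℓ s(u, v) * (2 + 16 * 157) := by
        refine mul_le_mul_of_nonneg_left ?_ (by positivity)
        have := min_le_left (16 * (157 : ℝ)) (4 * 157 * pathDist G ℓ u (nx u) / lm)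
        linarith
      refine e1.trans ?_
      have e2 : 772 * (157 : ℝ) ^ 2 * ℓ s(u, v) * (2 + 16 * 157) =
        772 * 157 ^ 2 * (2 + 16 * 157) * ℓ s(u, v) := by ring
      rw [e2]
      refine mul_le_mul_of_nonneg_right ?_ hpos.le
      unfold C1
      norm_num
  intro u v huv
  rcases le_total (pathDist G ℓ u (nx u)) (pathDist G ℓ v (nx v)) with h | h
  · exact hord u v huv h
  · have e := hord v u huv.symm h
    rw [Sym2.eq_swap] at e
    have e2 : ∑ i, w i * pathDist G ℓ (π i u) (π i v) =
        ∑ i, w i * pathDist G ℓ (π i v) (π i u) :=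
      Finset.sum_congr rfl fun i _ => by rw [M.comm (π i u) (π i v)]
    rw [e2]
    exact e

end Vale.Agent.P235.ST.H159.Retr
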