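import Vale.Agent.P235.ST.H317.Defs2
import Vale.Agent.P235.ST.H119.Clock
import Vale.Agent.P235.ST.H611.Cost

/-! P235, (ST) O(1): row r11 `stretch` from `uns_le`, `nxt_attain`, `vert`, `hop_cost`. helper159. -/

set_option linter.all false

namespace Vale.Agent.P235.STO.H159

open SimpleGraph

variable {V : Type}

theorem split_first {G : SimpleGraph V} (P : V → Prop) {a b : V} (g : G.Walk a b) (ha : ¬ P a) :
    (∀ v ∈ g.support, ¬ P v) ∨ ∃ c, ∃ g1 : G.Walk a c, ∃ g2 : G.Walk c b, g = g1.append g2 ∧ P c ∧
      0 < g1.length ∧ ∀ v ∈ g1.support, P v → v = c := by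
  induction g with
  | nil =>
    left
    intro v hv
    rw [Walk.support_nil, List.mem_singleton] at hv
    rwa [hv]
  | @cons a b' c hab p ih =>
    by_cases hb : P b'
    · right
      refine ⟨b', Walk.cons hab Walk.nil, p, rfl, hb, by simp, ?_⟩
      intro v hv hP
      simp only [Walk.support_cons, Walk.support_nil, List.mem_cons, List.mem_nil_iff, or_false] at hv
      rcases hv with rfl | rfl
      · exact absurd hP ha
      · rfl
    · rcases ih hb with h | ⟨c', g1, g2, h1, h2, h3, h4⟩
      · left
        intro v hv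
        rw [Walk.support_cons, List.mem_cons] at hv
        rcases hv with rfl | hv
        · exact ha
        · exact h v hv
      · right
        refine ⟨c', Walk.cons hab g1, g2, by rw [h1]; rfl, h2, by simp, ?_⟩
        intro v hv hP
        rw [Walk.support_cons, List.mem_cons] at hv
        rcases hv with rfl | hv
        · exact absurd hP ha
        · exact h4 v hv hP

/-- go on to the next vertex of `N` -/
theorem next_in {G : SimpleGraph V} (N : Set V) {a b : V} (g : G.Walk a b) (hb : b ∈ N) :
    ∃ c, ∃ g1 : G.Walk a c, ∃ g2 : G.Walk c b, g = g1.append g2 ∧ c ∈ N ∧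
      ∀ v ∈ g1.support, v ∈ N → v = c := by
  by_cases ha : a ∈ N
  · refine ⟨a, Walk.nil, g, rfl, ha, ?_⟩
    intro v hv _
    simpa using hv
  · rcases split_first (· ∈ N) g ha with h | ⟨c, g1, g2, h1, h2, -, h3⟩
    · exact absurd hb (h b (Walk.end_mem_support g))
    · exact ⟨c, g1, g2, h1, h2, h3⟩

theorem band_shift (W : LWorld V) (k m : ℕ) {a z : V} (h6 : 6 * 2 ^ k ≤ W.pos k m a)
    (h9 : W.pos k m a ≤ 9 * 2 ^ k) (hu : |W.u z - W.u a| ≤ 2 ^ k) :
    W.bi k m z = W.bi k m a ∧ W.mid k m z := by
  unfold LWorld.mid LWorld.bi LWorld.pos th at *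
  have hP : (0 : ℤ) < 2 ^ k := by positivity
  generalize (2 : ℤ) ^ k = P at *
  have hb : (0 : ℤ) < 16 * P := by linarith
  have e1 := Int.emod_add_mul_ediv (W.u a + m * P) (16 * P)
  set r := (W.u a + m * P) % (16 * P) with hr
  set q := (W.u a + m * P) / (16 * P) with hq
  have hδ := abs_le.1 hu
  have key := (Int.ediv_emod_unique (a := W.u z + m * P) (b := 16 * P)
    (r := r + (W.u z - W.u a)) (q := q) hb).2 ⟨by linarith, by linarith, by linarith⟩
  rw [key.1, key.2]
  exact ⟨rfl, by linarith, by linarith⟩

theorem d_tri (W : LWorld V) (x y z : V) : W.d x z ≤ W.d x y + W.d y z := by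
  unfold LWorld.d
  exact_mod_cast W.conn.dist_triangle

theorem d_comm (W : LWorld V) (x y : V) : W.d x y = W.d y x := by
  unfold LWorld.d
  rw [SimpleGraph.dist_comm]

theorem u_le_d (W : LWorld V) (x y : V) : |(W.u x : ℝ) - W.u y| ≤ W.d x y := by
  obtain ⟨g, hg⟩ := W.conn.exists_walk_length_eq_dist x y
  have := H119.abs_u_le W g
  rw [hg] at this
  unfold LWorld.d
  exact_mod_cast this

/-- two points of a line -/
theorem d_line (W : LWorld V) {p x y : V} (hp : p ∈ W.N) (hx : x ∈ W.L p) (hy : y ∈ W.L p) :
    W.d x y ≤ |(W.u x : ℝ) - W.u y| := by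
  have key : ∀ x ∈ W.L p, ∀ y ∈ W.L p, W.u x ≤ W.u y → W.d x y ≤ |(W.u x : ℝ) - W.u y| := by
    intro x hx y hy h
    obtain ⟨q, hq, -⟩ := W.L_path p hp x hx y hy h
    have h1 := dist_le q
    have h2 : (W.G.dist x y : ℤ) ≤ W.u y - W.u x := by rw [← hq]; exact_mod_cast h1
    have h3 : (W.G.dist x y : ℝ) ≤ W.u y - W.u x := by exact_mod_cast h2
    unfold LWorld.d
    rw [abs_sub_comm]
    exact h3.trans (le_abs_self _)
  rcases le_total (W.u x) (W.u y) with h | h
  · exact key x hx y hy h
  · rw [d_comm, abs_sub_comm]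
    exact key y hy x hx h

theorem d_supp (W : LWorld V) {x y v : V} (q : W.G.Walk x y) (hv : v ∈ q.support) :
    W.d x v ≤ q.length := by
  classical
  have h1 := dist_le (q.takeUntil v hv)
  have h2 := q.length_takeUntil_le hv
  unfold LWorld.d
  exact_mod_cast h1.trans h2

theorem stretch_core [Fintype V] (W : LWorld V) {ρ w : V → ℝ} (hρ : W.Scale ρ)
    (hw : W.Inv (W.nxt ρ) w)
    (hul : ∀ z y, W.uns ρ z y → W.d z y ≤ 16 * d1 * ρ z)
    (hat : ∀ x, 0 < W.nxt ρ x → ∃ z y, W.uns ρ z y ∧ W.nxt ρ x = W.d z y - W.d x z / kap)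
    (hvert : ∀ (a b : V) (g : W.G.Walk a b),
      (31 / 32) * |(W.u b : ℝ) - W.u a| - 8 * e1 * W.nxt ρ a ≤ cost w g)
    (hhop : ∀ (a b : V) (g : W.G.Walk a b), g.IsPath →
      (∀ z ∈ g.support, z ≠ a → z ≠ b → z ∉ W.N) → W.nxt ρ a ≤ 4 / kap →
      (4 / 5) * (g.length : ℝ) ≤ cost w g)
    {p a b : V} {k m : ℕ}
    (g : W.G.Walk a b) (hg : g.IsPath) (hr : W.Reg ρ p k m g) (ha : a ∈ W.N) (hb : b ∈ W.N)
    (hne : a ≠ b) :
    (W.D k m b : ℝ) ≤ W.D k m a + (5 / 4) * cost w g + 64 * d1 * ρ p ∨
    ∃ (c : V) (g1 : W.G.Walk a c) (g2 : W.G.Walk c b), g = g1.append g2 ∧ 0 < g1.length ∧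
      c ∈ W.N ∧ (W.D k m c : ℝ) ≤ W.D k m a + (5 / 4) * cost w g1 := by
  classical
  by_cases hS : W.nxt ρ a ≤ 4 / kap
  · right
    cases g with
    | nil => exact absurd rfl hne
    | @cons _ b' _ hab q =>
      obtain ⟨c, g1, g2, hg12, hcN, hin⟩ := next_in W.N q hb
      refine ⟨c, Walk.cons hab g1, g2, by rw [hg12]; rfl, by simp, hcN, ?_⟩
      have hp : (Walk.cons hab g1).IsPath := by
        rw [hg12, ← Walk.cons_append] at hg
        exact hg.of_append_left
      have h1 := hhop a c _ hp (fun z hz hza hzc hzN => by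
        rw [Walk.support_cons, List.mem_cons] at hz
        rcases hz with rfl | hz
        · exact hza rfl
        · exact hzc (hin z hz hzN)) hS
      have h2 := H119.reach_of_walk W k m (Walk.cons hab g1) (fun z hz => hr.same z (by
        rw [hg12, ← Walk.cons_append]
        exact Walk.support_subset_support_append_left _ _ hz))
      have h3 := H119.D_lip W k m h2.1
      have h4 : (W.D k m c : ℤ) ≤ W.D k m a + (Walk.cons hab g1).length := by
        have := h2.2
        zify at this
        linarith
      have h5 : (W.D k m c : ℝ) ≤ W.D k m a + ((Walk.cons hab g1).length : ℝ) := by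
        exact_mod_cast h4
      linarith
  · push Not at hS
    have hk0 : (0 : ℝ) < kap := by unfold kap; positivity
    have hpos : 0 < W.nxt ρ a := lt_trans (by positivity) hS
    obtain ⟨z, y, hu, he⟩ := hat a hpos
    have hul' := hul z y hu
    obtain ⟨hzN, hyN, huzy, hizy, hr0, h2k, hns⟩ := hu
    set t := W.d z y with ht
    have ht0 : 0 < t := lt_of_lt_of_le (by unfold r0; positivity) hr0
    have hda0 : 0 ≤ W.d a z := Nat.cast_nonneg _
    have haz : W.d a z ≤ t / 2 ^ 22 := by
      have : W.d a z / kap ≤ t := by linarith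
      rw [div_le_iff₀ hk0] at this
      unfold kap at this
      linarith
    have hnt : W.nxt ρ a ≤ t := by
      have : 0 ≤ W.d a z / kap := by positivity
      linarith
    have hzlip := abs_le.1 (hρ.lip p z)
    have hball := hr.ball a (Walk.start_mem_support g)
    have htri := d_tri W p a z
    have hbig := hr.big
    have hlo := hr.lo
    have hhi := hr.hi
    have hth : (th k : ℝ) = 16 * 2 ^ k := by unfold th; push_cast; ring
    have hdz : W.d p z / kap ≤ ρ p / 4 + 2 ^ 22 + t := by
      rw [div_le_iff₀ hk0]
      unfold kap at hball ⊢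
      linarith
    have ht1 : t ≤ 16 * (1 / 2 ^ 100) * ρ z := by unfold d1 at hul'; exact hul'
    have hz1 : ρ z ≤ 13 / 10 * ρ p := by linarith [hzlip.1]
    have hz2 : 2 / 3 * ρ p ≤ ρ z := by linarith [hzlip.2]
    have hlo' : 64 * (1 / 2 ^ 100) * ρ p ≤ 16 * 2 ^ k := by
      rw [← hth]; unfold d1 at hlo; exact hlo
    have hin : inList (ρ z) k := by
      unfold inList
      constructor
      · unfold d1; rw [hth]; linarith
      · have : (0:ℝ) < dl := by unfold dl; positivity
        nlinarith
    have h2k' : t / 2 ^ 22 ≤ 2 ^ k := by linarith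
    have hua : |W.u z - W.u a| ≤ 2 ^ k := by
      have h1 : |(W.u z : ℝ) - W.u a| ≤ 2 ^ k := by
        have := u_le_d W z a
        rw [d_comm] at this
        linarith
      exact_mod_cast h1
    obtain ⟨hb6, hb9⟩ := hr.band a (Walk.start_mem_support g)
    obtain ⟨hbz, hmz⟩ := band_shift W k m hb6 hb9 hua
    -- the clock does not serve the pair
    have hserve := hns k m hr.m16 hin
    unfold LWorld.serves at hserve
    have hzy : (W.Bg k m).Reachable z y ∧ (W.D k m y : ℝ) - W.D k m z < cp * t := by
      by_contra hcon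
      apply hserve
      refine ⟨hmz, ?_⟩
      by_cases hR : (W.Bg k m).Reachable z y
      · right
        by_contra h
        exact hcon ⟨hR, not_le.1 h⟩
      · exact Or.inl hR
    -- `z` is near `a` in the band
    obtain ⟨qz, hqz⟩ := W.conn.exists_walk_length_eq_dist a z
    have hraz := H119.reach_of_walk W k m qz (fun v hv => by
      have h1 := d_supp W qz hv
      rw [hqz] at h1
      have h2 : |(W.u v : ℝ) - W.u a| ≤ 2 ^ k := by
        have h3 := u_le_d W v a
        rw [d_comm] at h3
        have h4 : W.d a v ≤ W.d a z := h1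
        linarith
      exact (band_shift W k m hb6 hb9 (by exact_mod_cast h2)).1)
    have hDz : (W.D k m z : ℝ) ≤ W.D k m a + W.d a z := by
      have h1 := H119.D_lip W k m hraz.1
      have h2 := hraz.2
      rw [hqz] at h2
      have h3 : (W.D k m z : ℤ) ≤ W.D k m a + W.G.dist a z := by
        zify at h2
        linarith
      unfold LWorld.d
      exact_mod_cast h3
    -- the line of `y` is far
    have hfar : ∀ v ∈ W.L y, W.d z v ≤ t / 2 ^ 22 → False := by
      intro v hv hd
      have h1 := d_line W hyN hv (W.mem_L y hyN)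
      have h2 := u_le_d W v z
      rw [d_comm] at h2
      have h3 : (W.u z : ℝ) = W.u y := by exact_mod_cast huzy
      rw [← h3] at h1
      have h4 := d_tri W z v y
      linarith
    have haL : a ∉ W.L y := fun h => hfar a h (by rw [d_comm]; exact haz)
    have hia : W.idx a ≤ W.idx y := by
      by_contra hcon
      push Not at hcon
      obtain ⟨v, hv, hvL⟩ := W.sep y hyN z hzN a ha hizy hcon.le qz.reverse
      rw [Walk.support_reverse, List.mem_reverse] at hv
      have h1 : W.d z v ≤ t / 2 ^ 22 := by
        have h2 := d_supp W qz.reverse (by rw [Walk.support_reverse, List.mem_reverse]; exact hv)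
        rw [Walk.length_reverse, hqz] at h2
        exact le_trans h2 haz
      exact hfar v hvL h1
    -- the gain at a vertex of `N` left of the line of `y`
    have huy : (W.u z : ℝ) = W.u y := by exact_mod_cast huzy
    have hgain : ∀ c ∈ W.N, (W.Bg k m).Reachable a c → W.idx c ≤ W.idx y →
        (W.D k m c : ℝ) ≤ W.D k m a + |(W.u c : ℝ) - W.u z| + (1 / 2 ^ 21 + 1 / 2 ^ 22) * t := by
      intro c hc hac hi
      have hcy : (W.Bg k m).Reachable c y := (hac.symm.trans hraz.1).trans hzy.1
      have h1 := H119.D_M W k m hc hyN hcy hi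
      have h2 : (W.D k m c : ℝ) ≤ W.D k m y + |(W.u c : ℝ) - W.u y| := by exact_mod_cast h1
      have h3 := hzy.2
      unfold cp at h3
      rw [huy]
      linarith
    have huaz : |(W.u a : ℝ) - W.u z| ≤ t / 2 ^ 22 := (u_le_d W a z).trans haz
    have hPa : ¬ (a ∈ W.L y ∨ bb * t ≤ |(W.u a : ℝ) - W.u z|) := by
      rintro (h | h)
      · exact haL h
      · unfold bb at h
        linarith
    have hd1 : 0 ≤ d1 := by unfold d1; positivity
    rcases split_first (fun v => v ∈ W.L y ∨ bb * t ≤ |(W.u v : ℝ) - W.u z|) g hPa with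
      hno | ⟨v0, g1, g2, hg12, hPv0, hlen, hfirst⟩
    · left
      have hPb := hno b (Walk.end_mem_support g)
      push Not at hPb
      have hib : W.idx b ≤ W.idx y := by
        by_contra hcon
        push Not at hcon
        obtain ⟨v, hv, hvL⟩ := W.sep y hyN a ha b hb hia hcon.le g
        exact hno v hv (Or.inl hvL)
      have h1 := hgain b hb (H119.reach_of_walk W k m g hr.same).1 hib
      have h2 := H611.cost_nonneg w g
      have h3 := hPb.2
      unfold bb at h3
      have h4 : t ≤ 64 * d1 * ρ p := by unfold d1; linarith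
      linarith
    · right
      obtain ⟨c, g3, g4, h34, hcN, hin3⟩ := next_in W.N g2 hb
      have hsupp : ∀ v ∈ (g1.append g3).support, v ∈ g.support := by
        intro v hv
        rw [hg12, h34, Walk.append_assoc]
        exact Walk.support_subset_support_append_left _ _ hv
      have hv0 : v0 ∈ W.L y → v0 = c := fun h =>
        hin3 v0 (Walk.start_mem_support g3) (W.L_sub y hyN v0 h).1
      have hic : W.idx c ≤ W.idx y := by
        by_contra hcon
        push Not at hcon
        obtain ⟨v, hv, hvL⟩ := W.sep y hyN a ha c hcN hia hcon.le (g1.append g3)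
        have hvc : v = c := by
          rw [Walk.mem_support_append_iff] at hv
          rcases hv with hv | hv
          · have h1 := hfirst v hv (Or.inl hvL)
            rw [h1] at hvL ⊢
            exact hv0 hvL
          · exact hin3 v hv (W.L_sub y hyN v hvL).1
        rw [hvc] at hvL
        have := (W.L_sub y hyN c hvL).2
        omega
      refine ⟨c, g1.append g3, g4, by rw [hg12, h34, Walk.append_assoc], ?_, hcN, ?_⟩
      · rw [Walk.length_append]; omega
      · have h1 := hgain c hcN (H119.reach_of_walk W k m (g1.append g3)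
          (fun v hv => hr.same v (hsupp v hv))).1 hic
        have hca : |(W.u c : ℝ) - W.u z| ≤ |(W.u c : ℝ) - W.u a| + |(W.u a : ℝ) - W.u z| :=
          abs_sub_le _ _ _
        by_cases hβ : ∃ v ∈ (g1.append g3).support, bb * t ≤ |(W.u v : ℝ) - W.u z|
        · obtain ⟨v, hv, hdev⟩ := hβ
          have h2 := hvert a c (g1.append g3)
          have h3 := hvert a v ((g1.append g3).takeUntil v hv)
          have h4 := H611.cost_append w ((g1.append g3).takeUntil v hv)
            ((g1.append g3).dropUntil v hv)
          rw [Walk.take_spec] at h4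
          have h5 := H611.cost_nonneg w ((g1.append g3).dropUntil v hv)
          have h6 : |(W.u v : ℝ) - W.u z| ≤ |(W.u v : ℝ) - W.u a| + |(W.u a : ℝ) - W.u z| :=
            abs_sub_le _ _ _
          unfold bb at hdev
          unfold e1 at h2 h3
          linarith
        · push Not at hβ
          have h2 : v0 ∈ (g1.append g3).support := by
            rw [Walk.mem_support_append_iff]
            exact Or.inl (Walk.end_mem_support g1)
          have h3 : v0 ∈ W.L y := by
            rcases hPv0 with h | h
            · exact h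
            · exact absurd h (not_le.2 (hβ v0 h2))
          have h4 := hv0 h3
          have hcL : c ∈ W.L y := h4 ▸ h3
          have h5 := hβ c (Walk.end_mem_support _)
          have h6 := d_line W hyN hcL (W.mem_L y hyN)
          rw [← huy] at h6
          have h7 := d_tri W z a y
          have h8 := d_tri W a c y
          rw [d_comm W z a] at h7
          unfold bb at h5
          have h9 : C1 * d1 * W.nxt ρ a ≤ W.d a c := by
            unfold C1 d1
            linarith
          have h10 := hw.lb a c (g1.append g3) h9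
          unfold c2 at h10
          linarith

end Vale.Agent.P235.STO.H159
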