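import Vale.Agent.P235.ST.H159.Stretch
import Vale.Agent.P235.ST.H317.R12
import Vale.Agent.P235.ST.H649.Rows345
import Vale.Agent.P235.ST.H742.R1

/-! P235, (ST) O(1): rows r11 `stretch` and r12 `stretches`, no hypotheses left. helper159. -/

set_option linter.all false

namespace Vale.Agent.P235.STO.H159

open SimpleGraph

variable {V : Type}

theorem stretch [Fintype V] (W : LWorld V) : H317.Stretch W := by
  intro ρ w hρ hw p a b k m g hg hr ha hb hne
  have hbi : H649.BiOfReach W := fun k m {x y} h => H119.bi_of_reach W k m h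
  have hDT : H649.DT W := fun k m {x y} h1 h2 h3 h4 => H119.D_T W k m h1 h2 h3 h4
  have hmid : H649.ExMid W := fun k z => H742.exists_mid W k z
  have hns := H649.nxt_scale W ρ
  exact stretch_core W hρ hw (fun z y hu => H649.uns_le_of W hbi hDT hmid hu)
    (fun x hx => H649.nxt_attain W hx) (fun a b g => H611.vert W hns hw g)
    (fun a b g hg hin h => H611.hop_cost W hns hw g hg hin h) g hg hr ha hb hne

theorem stretches [Fintype V] (W : LWorld V) {ρ w : V → ℝ} (hρ : W.Scale ρ)
    (hw : W.Inv (W.nxt ρ) w) {p a b : V} {k m : ℕ} (g : W.G.Walk a b) (hg : g.IsPath)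
    (hr : W.Reg ρ p k m g) (ha : a ∈ W.N) (hb : b ∈ W.N) :
    (W.D k m b : ℝ) ≤ W.D k m a + (5 / 4) * cost w g + 64 * d1 * ρ p :=
  H317.stretches_of W (stretch W) hρ hw g hg hr ha hb

end Vale.Agent.P235.STO.H159
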